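import Vale.Agent.P153.Model.Markov

/-!
# P153, finite volume: the Lipschitz model on a graph

`Lp adj B` is the set of integer functions with `h v ∈ B v` and `|h v - h w| ≤ 1` for adjacent
`v, w`. All boundary conditions are encoded in `B` (a fixed value `{c}`, free `{0,1}`, no
condition `univ`).
-/

namespace Vale.Agent.P153.Fv

open Finset

variable {V : Type*}

/-- 1-Lipschitz integer functions with `h v ∈ B v` -/
def Lp (adj : V → V → Prop) (B : V → Set ℤ) : Set (V → ℤ) :=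
  {h | (∀ v, h v ∈ B v) ∧ ∀ v w, adj v w → |h v - h w| ≤ 1}

/-- `S` is the set of Lipschitz functions, as a finite set -/
def IsLp (adj : V → V → Prop) (B : V → Set ℤ) (S : Finset (V → ℤ)) : Prop :=
  ∀ h, h ∈ S ↔ h ∈ Lp adj B

theorem finite_of_bdd (U : Finset V) (ζ : V → ℤ) (M : ℤ) :
    {h : V → ℤ | (∀ x, |h x| ≤ M) ∧ ∀ x, x ∉ U → h x = ζ x}.Finite := by
  classical
  apply Set.Finite.of_finite_image (f := fun h : V → ℤ => fun x : U => h x)
  · apply Set.Finite.subset (s := Set.pi Set.univ (fun _ : U => Set.Icc (-M) M))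
    · exact Set.Finite.pi fun _ => Set.finite_Icc _ _
    · rintro g ⟨h, hh, rfl⟩
      intro x _
      exact Set.mem_Icc.2 (abs_le.1 (hh.1 x))
  · intro h hh g hg hhg
    funext x
    by_cases hx : x ∈ U
    · exact congrFun hhg ⟨x, hx⟩
    · rw [hh.2 x hx, hg.2 x hx]

/-- bound along paths -/
theorem Lp.path {adj : V → V → Prop} {B : V → Set ℤ} {h : V → ℤ} (hh : h ∈ Lp adj B)
    (n : ℕ) (p : ℕ → V) (hp : ∀ i < n, adj (p i) (p (i + 1))) : |h (p n) - h (p 0)| ≤ n := by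
  induction n with
  | zero => simp
  | succ n ih =>
    have h1 := ih fun i hi => hp i (Nat.lt_succ_of_lt hi)
    have h2 := hh.2 _ _ (hp n (Nat.lt_succ_self n))
    have h3 : |h (p (n + 1)) - h (p 0)| ≤ |h (p (n + 1)) - h (p n)| + |h (p n) - h (p 0)| :=
      abs_sub_le _ _ _
    rw [abs_sub_comm] at h2
    push_cast
    linarith

/-- the Lipschitz functions form a finite set if they are fixed off a finite set `U` and every
point of `U` is joined by a path of length at most `N` to a point where they are bounded by `M` -/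
theorem finite_Lp {adj : V → V → Prop} {B : V → Set ℤ} (U : Finset V)
    (hU : ∀ v, v ∉ U → (B v).Subsingleton) (M : ℤ) (hM : ∀ v, v ∉ U → ∀ a ∈ B v, |a| ≤ M)
    (N : ℕ) (hN : ∀ v ∈ U, ∃ n ≤ N, ∃ p : ℕ → V, (∀ i < n, adj (p i) (p (i + 1))) ∧ p n = v ∧
      ∀ a ∈ B (p 0), |a| ≤ M) : (Lp adj B).Finite := by
  classical
  by_cases hne : (Lp adj B).Nonempty
  · obtain ⟨ζ, hζ⟩ := hne
    apply (finite_of_bdd U ζ (M + N)).subset
    intro h hh
    refine ⟨fun x => ?_, fun x hx => hU x hx (hh.1 x) (hζ.1 x)⟩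
    by_cases hx : x ∈ U
    · obtain ⟨n, hn, p, hp, rfl, h0⟩ := hN x hx
      have h1 := Lp.path hh n p hp
      have h2 := h0 _ (hh.1 (p 0))
      have h3 : |h (p n)| ≤ |h (p n) - h (p 0)| + |h (p 0)| := by
        have := abs_add_le (h (p n) - h (p 0)) (h (p 0))
        simpa using this
      have h4 : (n : ℤ) ≤ N := by exact_mod_cast hn
      linarith
    · have := hM x hx _ (hh.1 x)
      have h4 : (0 : ℤ) ≤ N := by positivity
      linarith
  · rw [Set.not_nonempty_iff_eq_empty] at hne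
    rw [hne]
    exact Set.finite_empty

theorem exists_isLp {adj : V → V → Prop} {B : V → Set ℤ} (h : (Lp adj B).Finite) :
    ∃ S, IsLp adj B S := ⟨h.toFinset, fun g => by simp⟩

theorem IsLp.unique {adj : V → V → Prop} {B : V → Set ℤ} {S T : Finset (V → ℤ)}
    (hS : IsLp adj B S) (hT : IsLp adj B T) : S = T := by
  ext h
  rw [hS h, hT h]

/-! ### gluing and Markov property -/

/-- no edge joins `A \ B` and `B \ A` -/
def Sep (adj : V → V → Prop) (A B : Set V) : Prop :=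
  A ∪ B = Set.univ ∧ ∀ v, v ∉ B → ∀ w, w ∉ A → ¬ adj v w ∧ ¬ adj w v

theorem IsLp.glue {adj : V → V → Prop} {B : V → Set ℤ} {S : Finset (V → ℤ)}
    (hS : IsLp adj B S) {A C : Set V} (hAC : Sep adj A C) : Glue S A C := by
  classical
  intro h hh g hg q
  have hh' := (hS h).1 hh
  have hg' := (hS g).1 hg
  set k : V → ℤ := fun v => if v ∈ A then h v else g v with hk
  have kA : ∀ v ∈ A, k v = h v := fun v hv => by simp [hk, hv]
  have kC : ∀ v ∈ C, k v = g v := by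
    intro v hv
    by_cases hvA : v ∈ A
    · rw [kA v hvA]
      exact q v ⟨hvA, hv⟩
    · simp [hk, hvA]
  refine ⟨k, (hS k).2 ⟨fun v => ?_, fun v w hvw => ?_⟩, kA, kC⟩
  · by_cases hvA : v ∈ A
    · rw [kA v hvA]
      exact hh'.1 v
    · have hvC : v ∈ C := (hAC.1 ▸ Set.mem_univ v : v ∈ A ∪ C).resolve_left hvA
      rw [kC v hvC]
      exact hg'.1 v
  · by_cases h1 : v ∈ A ∧ w ∈ A
    · rw [kA v h1.1, kA w h1.2]
      exact hh'.2 v w hvw
    · by_cases h2 : v ∈ C ∧ w ∈ C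
      · rw [kC v h2.1, kC w h2.2]
        exact hg'.2 v w hvw
      · exfalso
        have hv : v ∈ A ∪ C := hAC.1 ▸ Set.mem_univ v
        have hw : w ∈ A ∪ C := hAC.1 ▸ Set.mem_univ w
        by_cases hvA : v ∈ A
        · have hwA : w ∉ A := fun hwA => h1 ⟨hvA, hwA⟩
          have hwC : w ∈ C := hw.resolve_left hwA
          have hvC : v ∉ C := fun hvC => h2 ⟨hvC, hwC⟩
          exact (hAC.2 v hvC w hwA).1 hvw
        · have hvC : v ∈ C := hv.resolve_left hvA
          have hwC : w ∉ C := fun hwC => h2 ⟨hvC, hwC⟩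
          exact (hAC.2 w hwC v hvA).2 hvw

/-! ### lattice structure -/

theorem Lp.inf {adj : V → V → Prop} {B B' : V → Set ℤ} {h g : V → ℤ} (hh : h ∈ Lp adj B)
    (hg : g ∈ Lp adj B') (C : V → Set ℤ) (hC : ∀ v, ∀ a ∈ B v, ∀ b ∈ B' v, min a b ∈ C v) :
    h ⊓ g ∈ Lp adj C := by
  refine ⟨fun v => hC v _ (hh.1 v) _ (hg.1 v), fun v w hvw => ?_⟩
  have := abs_min_sub_min_le_max (h v) (g v) (h w) (g w)
  exact this.trans (max_le (hh.2 v w hvw) (hg.2 v w hvw))

theorem Lp.sup {adj : V → V → Prop} {B B' : V → Set ℤ} {h g : V → ℤ} (hh : h ∈ Lp adj B)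
    (hg : g ∈ Lp adj B') (C : V → Set ℤ) (hC : ∀ v, ∀ a ∈ B v, ∀ b ∈ B' v, max a b ∈ C v) :
    h ⊔ g ∈ Lp adj C := by
  refine ⟨fun v => hC v _ (hh.1 v) _ (hg.1 v), fun v w hvw => ?_⟩
  have := abs_max_sub_max_le_max (h v) (g v) (h w) (g w)
  exact this.trans (max_le (hh.2 v w hvw) (hg.2 v w hvw))

theorem min_mem_self {B : Set ℤ} {a b : ℤ} (ha : a ∈ B) (hb : b ∈ B) : min a b ∈ B := by
  rcases min_choice a b with h | h <;> rw [h] <;> assumption

theorem max_mem_self {B : Set ℤ} {a b : ℤ} (ha : a ∈ B) (hb : b ∈ B) : max a b ∈ B := by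
  rcases max_choice a b with h | h <;> rw [h] <;> assumption

theorem IsLp.inf_mem {adj : V → V → Prop} {B : V → Set ℤ} {S : Finset (V → ℤ)}
    (hS : IsLp adj B S) : ∀ a ∈ S, ∀ b ∈ S, a ⊓ b ∈ S := fun a ha b hb =>
  (hS _).2 (Lp.inf ((hS a).1 ha) ((hS b).1 hb) B fun _ _ h _ h' => min_mem_self h h')

theorem IsLp.sup_mem {adj : V → V → Prop} {B : V → Set ℤ} {S : Finset (V → ℤ)}
    (hS : IsLp adj B S) : ∀ a ∈ S, ∀ b ∈ S, a ⊔ b ∈ S := fun a ha b hb =>
  (hS _).2 (Lp.sup ((hS a).1 ha) ((hS b).1 hb) B fun _ _ h _ h' => max_mem_self h h')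

/-- positive association of the heights -/
theorem IsLp.fkg {adj : V → V → Prop} {B : V → Set ℤ} {S : Finset (V → ℤ)}
    (hS : IsLp adj B S) (hne : S.Nonempty) {F G : (V → ℤ) → ℝ} (hF : Monotone F)
    (hG : Monotone G) : ev S F * ev S G ≤ ev S (fun h => F h * G h) :=
  ev_mul_ge S hne hS.inf_mem hS.sup_mem F G hF hG

/-- positive association of the heights given the values on any set -/
theorem IsLp.cond_fkg {adj : V → V → Prop} {B : V → Set ℤ} {S : Finset (V → ℤ)}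
    (hS : IsLp adj B S) (A : Set V) {h : V → ℤ} (hh : h ∈ S) {F G : (V → ℤ) → ℝ}
    (hF : Monotone F) (hG : Monotone G) :
    cE S A F h * cE S A G h ≤ cE S A (fun g => F g * G g) h :=
  cE_mul_ge hS.inf_mem hS.sup_mem A hh hF hG

/-- conditional expectations of increasing functions are increasing in the condition -/
theorem IsLp.cond_mono {adj : V → V → Prop} {B : V → Set ℤ} {S : Finset (V → ℤ)}
    (hS : IsLp adj B S) (A : Set V) {h g : V → ℤ} (hh : h ∈ S) (hg : g ∈ S)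
    (hle : ∀ v ∈ A, h v ≤ g v) {F : (V → ℤ) → ℝ} (hF : Monotone F) :
    cE S A F h ≤ cE S A F g :=
  cE_le_cE hS.inf_mem hS.sup_mem A hh hg hle hF

/-- comparison of boundary conditions -/
theorem IsLp.le_of_le {adj : V → V → Prop} {B B' : V → Set ℤ} {S S' : Finset (V → ℤ)}
    (hS : IsLp adj B S) (hS' : IsLp adj B' S') (hne : S.Nonempty) (hne' : S'.Nonempty)
    (hBB : ∀ v, ∀ a ∈ B v, ∀ b ∈ B' v, min a b ∈ B v ∧ max a b ∈ B' v)
    {F : (V → ℤ) → ℝ} (hF : Monotone F) : ev S F ≤ ev S' F :=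
  ev_le_ev S S' hne hne'
    (fun a ha b hb => (hS _).2 (Lp.inf ((hS a).1 ha) ((hS' b).1 hb) B
      fun v a' h b' h' => (hBB v a' h b' h').1))
    (fun a ha b hb => (hS' _).2 (Lp.sup ((hS a).1 ha) ((hS' b).1 hb) B'
      fun v a' h b' h' => (hBB v a' h b' h').2)) F hF

/-! ### symmetries -/

theorem IsLp.refl {adj : V → V → Prop} {B : V → Set ℤ} {S : Finset (V → ℤ)}
    (hS : IsLp adj B S) {θ : V → V} (hθ : ∀ v, θ (θ v) = v)
    (hadj : ∀ v w, adj v w → adj (θ v) (θ w)) (hB : ∀ v, B (θ v) ⊆ B v) : Refl S θ := by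
  refine ⟨hθ, fun h hh => ?_⟩
  have hh' := (hS h).1 hh
  refine (hS _).2 ⟨fun v => hB v (hh'.1 (θ v)), fun v w hvw => hh'.2 _ _ (hadj v w hvw)⟩

/-- transport of the law by an isomorphism of graphs -/
theorem IsLp.map {W : Type*} {adj : V → V → Prop} {adj' : W → W → Prop} {B : V → Set ℤ}
    {B' : W → Set ℤ} {S : Finset (V → ℤ)} {S' : Finset (W → ℤ)} (hS : IsLp adj B S)
    (hS' : IsLp adj' B' S') (θ : V ≃ W) (hadj : ∀ v w, adj v w ↔ adj' (θ v) (θ w))
    (hB : ∀ v, B' (θ v) = B v) (F : (V → ℤ) → ℝ) :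
    ev S' (fun h => F (h ∘ θ)) = ev S F := by
  have h1 : ∀ h ∈ S', h ∘ θ ∈ S := by
    intro h hh
    have hh' := (hS' h).1 hh
    exact (hS _).2 ⟨fun v => hB v ▸ hh'.1 (θ v), fun v w hvw => hh'.2 _ _ ((hadj v w).1 hvw)⟩
  have h2 : ∀ h ∈ S, h ∘ θ.symm ∈ S' := by
    intro h hh
    have hh' := (hS h).1 hh
    refine (hS' _).2 ⟨fun v => ?_, fun v w hvw => hh'.2 _ _ ((hadj _ _).2 (by simpa using hvw))⟩
    have := hB (θ.symm v)
    rw [Equiv.apply_symm_apply] at this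
    rw [this]
    exact hh'.1 _
  have e1 : ∑ h ∈ S', F (h ∘ θ) = ∑ h ∈ S, F h := by
    refine Finset.sum_bij' (fun h _ => h ∘ θ) (fun h _ => h ∘ θ.symm) h1 h2 ?_ ?_ ?_
    · intro h _
      funext v
      simp
    · intro h _
      funext v
      simp
    · intro h _
      rfl
  have e2 : #S' = #S := by
    refine Finset.card_bij' (fun h _ => h ∘ θ) (fun h _ => h ∘ θ.symm) h1 h2 ?_ ?_
    · intro h _
      funext v
      simp
    · intro h _
      funext v
      simp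
  unfold ev
  rw [e1, e2]

/-- reflection identity for the Lipschitz model, `E[E_R F · E_R G] = E[F · θG]` -/
theorem IsLp.reflect {adj : V → V → Prop} {B : V → Set ℤ} {S : Finset (V → ℤ)}
    (hS : IsLp adj B S) {θ : V → V} (hθ : ∀ v, θ (θ v) = v)
    (hadj : ∀ v w, adj v w → adj (θ v) (θ w)) (hB : ∀ v, B (θ v) ⊆ B v) {A C : Set V}
    (hAC : Sep adj A C) (hAθ : ∀ v ∈ A, θ v ∈ C) (hR : ∀ v ∈ A ∩ C, θ v = v)
    {F G : (V → ℤ) → ℝ} (hF : Dep A F) (hG : Dep A G) :
    ev S (fun h => F h * G (h ∘ θ)) = ev S (fun h => cE S (A ∩ C) F h * cE S (A ∩ C) G h) :=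
  ev_reflect (hS.refl hθ hadj hB) hAC.1 (hS.glue hAC) hAθ hR hF hG

/-- reflection positivity for the Lipschitz model -/
theorem IsLp.rp {adj : V → V → Prop} {B : V → Set ℤ} {S : Finset (V → ℤ)}
    (hS : IsLp adj B S) {θ : V → V} (hθ : ∀ v, θ (θ v) = v)
    (hadj : ∀ v w, adj v w → adj (θ v) (θ w)) (hB : ∀ v, B (θ v) ⊆ B v) {A C : Set V}
    (hAC : Sep adj A C) (hAθ : ∀ v ∈ A, θ v ∈ C) (hR : ∀ v ∈ A ∩ C, θ v = v)
    {F : (V → ℤ) → ℝ} (hF : Dep A F) : 0 ≤ ev S (fun h => F h * F (h ∘ θ)) :=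
  ev_rp (hS.refl hθ hadj hB) hAC.1 (hS.glue hAC) hAθ hR hF

/-- Markov property -/
theorem IsLp.markov {adj : V → V → Prop} {B : V → Set ℤ} {S : Finset (V → ℤ)}
    (hS : IsLp adj B S) {A C : Set V} (hAC : Sep adj A C) {F : (V → ℤ) → ℝ} (hF : Dep A F)
    {h : V → ℤ} (hh : h ∈ S) : cE S C F h = cE S (A ∩ C) F h :=
  Fv.markov hAC.1 (hS.glue hAC) hF hh

/-- domain Markov property: given the values on `C`, the values are those of the model with the
boundary condition `B` restricted to the given values on `C` -/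
theorem IsLp.cyl_isLp {adj : V → V → Prop} {B : V → Set ℤ} {S : Finset (V → ℤ)}
    (hS : IsLp adj B S) (C : Set V) {h : V → ℤ} (hh : h ∈ S) [DecidablePred (· ∈ C)] :
    IsLp adj (fun v => if v ∈ C then {h v} else B v) (cyl S C h) := by
  intro g
  rw [mem_cyl, hS g]
  constructor
  · rintro ⟨h1, h2⟩
    refine ⟨fun v => ?_, h1.2⟩
    by_cases hv : v ∈ C
    · simp only [hv, if_true, Set.mem_singleton_iff]
      exact h2 v hv
    · simp only [hv, if_false]
      exact h1.1 v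
  · rintro ⟨h1, h2⟩
    have h3 : ∀ v ∈ C, g v = h v := by
      intro v hv
      have := h1 v
      simpa [hv] using this
    refine ⟨⟨fun v => ?_, h2⟩, h3⟩
    by_cases hv : v ∈ C
    · rw [h3 v hv]
      exact ((hS h).1 hh).1 v
    · have := h1 v
      simpa [hv] using this

end Vale.Agent.P153.Fv
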