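import Vale.Agent.P153.Lattice
import Vale.Agent.P153.Model.Lip

/-!
# P153, finite volume: the model with free `{0,1}` boundary values on the triangular lattice

`reg Λ` is the finite set of Lipschitz functions on `ℤ × ℤ` which vanish off `Λ` and take a value
in `{0, 1}` at every vertex of `Λ` with a neighbour outside `Λ`.
-/

namespace Vale.Agent.P153.Fv

open Finset

/-- the vertices of `Λ` all whose neighbours are in `Λ` -/
def inner (Λ : Finset (ℤ × ℤ)) : Set (ℤ × ℤ) := {v | v ∈ Λ ∧ ∀ w, Adj v w → w ∈ Λ}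

open Classical in
/-- the boundary condition: `0` outside, `{0, 1}` on the boundary, free inside -/
noncomputable def bc (Λ : Finset (ℤ × ℤ)) (v : ℤ × ℤ) : Set ℤ :=
  if v ∉ Λ then {0} else if v ∈ inner Λ then Set.univ else {0, 1}

theorem bc_out {Λ : Finset (ℤ × ℤ)} {v : ℤ × ℤ} (h : v ∉ Λ) : bc Λ v = {0} := by
  simp [bc, h]

theorem bc_inner {Λ : Finset (ℤ × ℤ)} {v : ℤ × ℤ} (h : v ∈ inner Λ) : bc Λ v = Set.univ := by
  simp [bc, h, h.1]

theorem bc_bd {Λ : Finset (ℤ × ℤ)} {v : ℤ × ℤ} (h : v ∈ Λ) (h' : v ∉ inner Λ) :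
    bc Λ v = {0, 1} := by
  simp [bc, h, h']

theorem zero_mem_bc (Λ : Finset (ℤ × ℤ)) (v : ℤ × ℤ) : (0 : ℤ) ∈ bc Λ v := by
  unfold bc
  split_ifs <;> simp

theorem adj_iff {x y : ℤ × ℤ} : Adj x y ↔ (y.1 = x.1 + 1 ∧ y.2 = x.2) ∨
    (y.1 = x.1 - 1 ∧ y.2 = x.2) ∨ (y.1 = x.1 ∧ y.2 = x.2 + 1) ∨ (y.1 = x.1 ∧ y.2 = x.2 - 1) ∨
    (y.1 = x.1 + 1 ∧ y.2 = x.2 - 1) ∨ (y.1 = x.1 - 1 ∧ y.2 = x.2 + 1) := by
  unfold Adj
  simp only [Set.mem_insert_iff, Set.mem_singleton_iff, Prod.mk.injEq]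
  constructor <;> intro h <;> omega

theorem adj_comm' {x y : ℤ × ℤ} : Adj x y ↔ Adj y x := by
  rw [adj_iff, adj_iff]
  constructor <;> intro h <;> omega

/-- every vertex is joined to the outside of a finite set by a horizontal path -/
theorem exists_out (Λ : Finset (ℤ × ℤ)) (v : ℤ × ℤ) : ∃ n ≤ #Λ, (v.1 + (n : ℤ), v.2) ∉ Λ := by
  classical
  by_contra hcon
  push Not at hcon
  have h1 : (Finset.range (#Λ + 1)).image (fun n : ℕ => (v.1 + (n : ℤ), v.2)) ⊆ Λ := by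
    intro w hw
    obtain ⟨n, hn, rfl⟩ := Finset.mem_image.1 hw
    exact hcon n (by simpa [Nat.lt_succ_iff] using hn)
  have h2 := Finset.card_le_card h1
  rw [Finset.card_image_of_injective, Finset.card_range] at h2
  · omega
  · intro a b hab
    simpa using hab

theorem finite_reg (Λ : Finset (ℤ × ℤ)) : (Lp Adj (bc Λ)).Finite := by
  refine finite_Lp Λ (fun v hv => ?_) 0 (fun v hv a ha => ?_) (#Λ) (fun v _ => ?_)
  · rw [bc_out hv]
    exact Set.subsingleton_singleton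
  · rw [bc_out hv] at ha
    simp [Set.mem_singleton_iff.1 ha]
  · obtain ⟨n, hn, hn'⟩ := exists_out Λ v
    refine ⟨n, hn, fun i => (v.1 + ((n : ℤ) - i), v.2), fun i hi => ?_, ?_, fun a ha => ?_⟩
    · rw [adj_iff]
      right; left
      constructor
      · push_cast
        ring
      · rfl
    · simp
    · simp only [Nat.cast_zero, sub_zero] at ha
      rw [bc_out hn'] at ha
      simp [Set.mem_singleton_iff.1 ha]

/-- the height functions of the region `Λ` with free `{0,1}` boundary values -/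
noncomputable def reg (Λ : Finset (ℤ × ℤ)) : Finset (ℤ × ℤ → ℤ) := (finite_reg Λ).toFinset

theorem reg_isLp (Λ : Finset (ℤ × ℤ)) : IsLp Adj (bc Λ) (reg Λ) := fun h => by simp [reg]

theorem zero_mem_reg (Λ : Finset (ℤ × ℤ)) : (fun _ => 0) ∈ reg Λ :=
  (reg_isLp Λ _).2 ⟨fun v => zero_mem_bc Λ v, fun _ _ _ => by simp⟩

theorem reg_nonempty (Λ : Finset (ℤ × ℤ)) : (reg Λ).Nonempty := ⟨_, zero_mem_reg Λ⟩

theorem mem_reg {Λ : Finset (ℤ × ℤ)} {h : ℤ × ℤ → ℤ} : h ∈ reg Λ ↔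
    (∀ v, v ∉ Λ → h v = 0) ∧ (∀ v ∈ Λ, v ∉ inner Λ → h v = 0 ∨ h v = 1) ∧
      ∀ v w, Adj v w → |h v - h w| ≤ 1 := by
  rw [reg_isLp Λ h]
  constructor
  · rintro ⟨h1, h2⟩
    refine ⟨fun v hv => ?_, fun v hv hv' => ?_, h2⟩
    · have := h1 v
      rw [bc_out hv] at this
      exact this
    · have := h1 v
      rw [bc_bd hv hv'] at this
      exact this
  · rintro ⟨h1, h2, h3⟩
    refine ⟨fun v => ?_, h3⟩
    by_cases hv : v ∈ Λ
    · by_cases hv' : v ∈ inner Λ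
      · rw [bc_inner hv']
        trivial
      · rw [bc_bd hv hv']
        exact h2 v hv hv'
    · rw [bc_out hv]
      exact h1 v hv

/-- bound on the heights -/
theorem reg_bdd {Λ : Finset (ℤ × ℤ)} {h : ℤ × ℤ → ℤ} (hh : h ∈ reg Λ) (v : ℤ × ℤ) :
    |h v| ≤ #Λ := by
  obtain ⟨n, hn, hn'⟩ := exists_out Λ v
  have hp := Lp.path ((reg_isLp Λ h).1 hh) n (fun i => (v.1 + ((n : ℤ) - i), v.2)) (by
    intro i _
    rw [adj_iff]
    right; left
    constructor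
    · push_cast
      ring
    · rfl)
  simp only [sub_self, add_zero, Nat.cast_zero, sub_zero] at hp
  rw [(mem_reg.1 hh).1 _ hn', sub_zero] at hp
  have h4 : (n : ℤ) ≤ #Λ := by exact_mod_cast hn
  exact le_trans hp h4

/-! ### symmetries -/

/-- an automorphism of the triangular lattice -/
def Aut (θ : (ℤ × ℤ) ≃ (ℤ × ℤ)) : Prop := ∀ v w, Adj v w ↔ Adj (θ v) (θ w)

theorem bc_aut {θ : (ℤ × ℤ) ≃ (ℤ × ℤ)} (hθ : Aut θ) {Λ Λ' : Finset (ℤ × ℤ)}
    (h : ∀ v, θ v ∈ Λ' ↔ v ∈ Λ) (v : ℤ × ℤ) : bc Λ' (θ v) = bc Λ v := by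
  have h2 : θ v ∈ inner Λ' ↔ v ∈ inner Λ := by
    constructor
    · rintro ⟨h3, h4⟩
      exact ⟨(h v).1 h3, fun w hw => (h w).1 (h4 _ ((hθ v w).1 hw))⟩
    · rintro ⟨h3, h4⟩
      refine ⟨(h v).2 h3, fun w hw => ?_⟩
      have h5 : Adj v (θ.symm w) := (hθ v (θ.symm w)).2 (by simpa using hw)
      have := (h (θ.symm w)).2 (h4 _ h5)
      simpa using this
  by_cases h3 : v ∈ Λ
  · by_cases h4 : v ∈ inner Λ
    · rw [bc_inner h4, bc_inner (h2.2 h4)]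
    · rw [bc_bd h3 h4, bc_bd ((h v).2 h3) fun h5 => h4 (h2.1 h5)]
  · rw [bc_out h3, bc_out fun h5 => h3 ((h v).1 h5)]

/-- the law of the region is transported by automorphisms -/
theorem reg_map {θ : (ℤ × ℤ) ≃ (ℤ × ℤ)} (hθ : Aut θ) {Λ Λ' : Finset (ℤ × ℤ)}
    (h : ∀ v, θ v ∈ Λ' ↔ v ∈ Λ) (F : (ℤ × ℤ → ℤ) → ℝ) :
    ev (reg Λ') (fun g => F (g ∘ θ)) = ev (reg Λ) F :=
  (reg_isLp Λ).map (reg_isLp Λ') θ hθ (bc_aut hθ h) F

/-- the reflection in row `l` -/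
def th (l : ℤ) (v : ℤ × ℤ) : ℤ × ℤ := (v.1 + (v.2 - l), 2 * l - v.2)

theorem th_th (l : ℤ) (v : ℤ × ℤ) : th l (th l v) = v := by
  unfold th
  ext <;> simp <;> ring

theorem th_adj (l : ℤ) {v w : ℤ × ℤ} (h : Adj v w) : Adj (th l v) (th l w) := by
  rw [adj_iff] at *
  unfold th
  simp only
  omega

/-- the reflection as an equivalence -/
def thE (l : ℤ) : (ℤ × ℤ) ≃ (ℤ × ℤ) := ⟨th l, th l, th_th l, th_th l⟩

theorem thE_aut (l : ℤ) : Aut (thE l) := fun v w => ⟨fun h => th_adj l h, fun h => by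
  have := th_adj l h
  simpa [thE, th_th] using this⟩

/-- the rotation by 60 degrees -/
def rotE : (ℤ × ℤ) ≃ (ℤ × ℤ) where
  toFun v := (-v.2, v.1 + v.2)
  invFun v := (v.1 + v.2, -v.1)
  left_inv v := by ext <;> simp
  right_inv v := by ext <;> simp

theorem rotE_aut : Aut rotE := by
  intro v w
  rw [adj_iff, adj_iff]
  simp only [rotE, Equiv.coe_fn_mk]
  omega

/-- the reflection exchanging the coordinates -/
def swE : (ℤ × ℤ) ≃ (ℤ × ℤ) := Equiv.prodComm ℤ ℤ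

theorem swE_aut : Aut swE := by
  intro v w
  rw [adj_iff, adj_iff]
  simp only [swE, Equiv.prodComm_apply, Prod.fst_swap, Prod.snd_swap]
  omega

/-- translations -/
def trE (t : ℤ × ℤ) : (ℤ × ℤ) ≃ (ℤ × ℤ) := Equiv.addRight t

theorem trE_aut (t : ℤ × ℤ) : Aut (trE t) := by
  intro v w
  rw [adj_iff, adj_iff]
  simp only [trE, Equiv.coe_addRight, Prod.fst_add, Prod.snd_add]
  omega

/-- the rows `≥ l` -/
def up (l : ℤ) : Set (ℤ × ℤ) := {v | l ≤ v.2}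

/-- the rows `≤ l` -/
def dn (l : ℤ) : Set (ℤ × ℤ) := {v | v.2 ≤ l}

/-- the row `l` -/
def row (l : ℤ) : Set (ℤ × ℤ) := {v | v.2 = l}

theorem up_inter_dn (l : ℤ) : up l ∩ dn l = row l := by
  ext v
  simp only [up, dn, row, Set.mem_inter_iff, Set.mem_ofPred_eq]
  omega

theorem sep_up_dn (l : ℤ) : Sep Adj (up l) (dn l) := by
  constructor
  · ext v
    simp only [up, dn, Set.mem_union, Set.mem_ofPred_eq, Set.mem_univ, iff_true]
    omega
  · intro v hv w hw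
    simp only [up, dn, Set.mem_ofPred_eq] at hv hw
    rw [adj_iff, adj_iff]
    omega

theorem th_up (l : ℤ) : ∀ v ∈ up l, th l v ∈ dn l := by
  intro v hv
  simp only [up, dn, th, Set.mem_ofPred_eq] at *
  omega

theorem th_row (l : ℤ) : ∀ v ∈ row l, th l v = v := by
  intro v hv
  simp only [row, th, Set.mem_ofPred_eq] at *
  ext <;> simp <;> omega

/-- `Λ` is symmetric with respect to row `l` -/
def SymRow (Λ : Finset (ℤ × ℤ)) (l : ℤ) : Prop := ∀ v, th l v ∈ Λ ↔ v ∈ Λ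

theorem bc_th {Λ : Finset (ℤ × ℤ)} {l : ℤ} (h : SymRow Λ l) (v : ℤ × ℤ) :
    bc Λ (th l v) ⊆ bc Λ v := (bc_aut (thE_aut l) (θ := thE l) h v).le

/-- Markov property in the rows -/
theorem reg_markov (Λ : Finset (ℤ × ℤ)) (l : ℤ) {F : (ℤ × ℤ → ℤ) → ℝ} (hF : Dep (up l) F)
    {h : ℤ × ℤ → ℤ} (hh : h ∈ reg Λ) : cE (reg Λ) (dn l) F h = cE (reg Λ) (row l) F h := by
  have := (reg_isLp Λ).markov (sep_up_dn l) hF hh
  rwa [up_inter_dn] at this

/-- reflection identity in a region symmetric with respect to row `l` -/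
theorem reg_reflect {Λ : Finset (ℤ × ℤ)} {l : ℤ} (hΛ : SymRow Λ l)
    {F G : (ℤ × ℤ → ℤ) → ℝ} (hF : Dep (up l) F) (hG : Dep (up l) G) :
    ev (reg Λ) (fun h => F h * G (h ∘ th l))
      = ev (reg Λ) (fun h => cE (reg Λ) (dn l) F h * cE (reg Λ) (dn l) G h) := by
  have := (reg_isLp Λ).reflect (th_th l) (fun v w h => th_adj l h) (bc_th hΛ) (sep_up_dn l)
    (th_up l) (by rw [up_inter_dn]; exact th_row l) hF hG
  rw [this, up_inter_dn]
  apply ev_congr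
  intro h hh
  rw [reg_markov Λ l hF hh, reg_markov Λ l hG hh]

/-- reflection positivity -/
theorem reg_rp {Λ : Finset (ℤ × ℤ)} {l : ℤ} (hΛ : SymRow Λ l)
    {F : (ℤ × ℤ → ℤ) → ℝ} (hF : Dep (up l) F) :
    0 ≤ ev (reg Λ) (fun h => F h * F (h ∘ th l)) := by
  rw [reg_reflect hΛ hF hF]
  exact ev_nonneg _ _ fun h _ => mul_self_nonneg _

/-- invariance under the reflection -/
theorem reg_th {Λ : Finset (ℤ × ℤ)} {l : ℤ} (hΛ : SymRow Λ l) (F : (ℤ × ℤ → ℤ) → ℝ) :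
    ev (reg Λ) (fun h => F (h ∘ th l)) = ev (reg Λ) F :=
  reg_map (thE_aut l) (θ := thE l) hΛ F

/-- the hexagon of radius `n` -/
noncomputable def hex (n : ℕ) : Finset (ℤ × ℤ) :=
  ((Finset.Icc (-(n : ℤ)) n) ×ˢ (Finset.Icc (-(n : ℤ)) n)).filter
    (fun v => |v.1 + v.2| ≤ n)

theorem mem_hex {n : ℕ} {v : ℤ × ℤ} : v ∈ hex n ↔ |v.1| ≤ n ∧ |v.2| ≤ n ∧ |v.1 + v.2| ≤ n := by
  simp only [hex, Finset.mem_filter, Finset.mem_product, Finset.mem_Icc, abs_le]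
  tauto

theorem hex_sym (n : ℕ) : SymRow (hex n) 0 := by
  intro v
  rw [mem_hex, mem_hex]
  simp only [th, sub_zero, mul_zero, zero_sub, abs_neg]
  rw [show v.1 + v.2 + -v.2 = v.1 by ring]
  tauto

theorem hex_rot (n : ℕ) : ∀ v, rotE v ∈ hex n ↔ v ∈ hex n := by
  intro v
  rw [mem_hex, mem_hex]
  simp only [rotE, Equiv.coe_fn_mk, abs_neg]
  rw [show -v.2 + (v.1 + v.2) = v.1 by ring]
  tauto

theorem hex_sw (n : ℕ) : ∀ v, swE v ∈ hex n ↔ v ∈ hex n := by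
  intro v
  rw [mem_hex, mem_hex]
  simp only [swE, Equiv.prodComm_apply, Prod.fst_swap, Prod.snd_swap]
  rw [add_comm v.2 v.1]
  tauto

theorem hex_mono {n m : ℕ} (h : n ≤ m) : hex n ⊆ hex m := by
  intro v
  rw [mem_hex, mem_hex]
  have : (n : ℤ) ≤ m := by exact_mod_cast h
  intro ⟨h1, h2, h3⟩
  exact ⟨h1.trans this, h2.trans this, h3.trans this⟩

/-- the rectangle: rows `-H ≤ j ≤ H'` of the vertical strip `|2 a + j| ≤ 2 N` -/
noncomputable def rect (N H H' : ℕ) : Finset (ℤ × ℤ) :=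
  ((Finset.Icc (-((N : ℤ) + H + H')) (N + H + H')) ×ˢ (Finset.Icc (-(H : ℤ)) H')).filter
    (fun v => |2 * v.1 + v.2| ≤ 2 * N)

theorem mem_rect {N H H' : ℕ} {v : ℤ × ℤ} :
    v ∈ rect N H H' ↔ (-(H : ℤ) ≤ v.2 ∧ v.2 ≤ H') ∧ |2 * v.1 + v.2| ≤ 2 * N := by
  simp only [rect, Finset.mem_filter, Finset.mem_product, Finset.mem_Icc]
  constructor
  · rintro ⟨⟨_, h2⟩, h3⟩
    exact ⟨h2, h3⟩
  · rintro ⟨h1, h2⟩
    refine ⟨⟨?_, h1⟩, h2⟩
    rw [abs_le] at h2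
    constructor <;> omega

theorem rect_sym (N H H' : ℕ) (l : ℤ) (h : (H' : ℤ) - l = l + H) : SymRow (rect N H H') l := by
  intro v
  rw [mem_rect, mem_rect]
  simp only [th]
  rw [show 2 * (v.1 + (v.2 - l)) + (2 * l - v.2) = 2 * v.1 + v.2 by ring]
  refine and_congr_left fun _ => ?_
  omega

end Vale.Agent.P153.Fv
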