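import Vale.Agent.P153.FkgGen

/-!
# P153, finite volume: conditional expectations, Markov property, reflections

Everything is about the uniform law on a finite set `S` of functions `V → X`.
`cE S A F` is the conditional expectation of `F` given the values on `A`.
-/

namespace Vale.Agent.P153.Fv

open Finset

variable {V X : Type*}

/-- `h` and `g` agree on `A` -/
def Agree (A : Set V) (h g : V → X) : Prop := ∀ v ∈ A, h v = g v

theorem Agree.rfl' {A : Set V} {h : V → X} : Agree A h h := fun _ _ => rfl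

theorem Agree.symm {A : Set V} {h g : V → X} (p : Agree A h g) : Agree A g h :=
  fun v hv => (p v hv).symm

theorem Agree.trans {A : Set V} {h g k : V → X} (p : Agree A h g) (q : Agree A g k) :
    Agree A h k := fun v hv => (p v hv).trans (q v hv)

theorem Agree.mono {A B : Set V} {h g : V → X} (hAB : A ⊆ B) (p : Agree B h g) : Agree A h g :=
  fun v hv => p v (hAB hv)

/-- `F` depends only on the values on `A` -/
def Dep (A : Set V) (F : (V → X) → ℝ) : Prop := ∀ h g, Agree A h g → F h = F g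

theorem Dep.mono {A B : Set V} {F : (V → X) → ℝ} (hAB : A ⊆ B) (p : Dep A F) : Dep B F :=
  fun h g q => p h g (q.mono hAB)

theorem Dep.mul {A : Set V} {F G : (V → X) → ℝ} (p : Dep A F) (q : Dep A G) :
    Dep A (fun h => F h * G h) := fun h g r => by simp only [p h g r, q h g r]

theorem Dep.add {A : Set V} {F G : (V → X) → ℝ} (p : Dep A F) (q : Dep A G) :
    Dep A (fun h => F h + G h) := fun h g r => by simp only [p h g r, q h g r]

theorem Dep.sub {A : Set V} {F G : (V → X) → ℝ} (p : Dep A F) (q : Dep A G) :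
    Dep A (fun h => F h - G h) := fun h g r => by simp only [p h g r, q h g r]

theorem dep_const (A : Set V) (c : ℝ) : Dep (X := X) A (fun _ => c) := fun _ _ _ => rfl

theorem dep_apply {A : Set V} {v : V} (hv : v ∈ A) (φ : X → ℝ) : Dep A (fun h : V → X => φ (h v)) :=
  fun h g r => by simp only [r v hv]

open Classical in
/-- the members of `S` that agree with `h` on `A` -/
noncomputable def cyl (S : Finset (V → X)) (A : Set V) (h : V → X) : Finset (V → X) :=
  S.filter (fun g => Agree A g h)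

theorem mem_cyl {S : Finset (V → X)} {A : Set V} {h g : V → X} :
    g ∈ cyl S A h ↔ g ∈ S ∧ Agree A g h := by
  classical
  simp [cyl]

theorem self_mem_cyl {S : Finset (V → X)} {A : Set V} {h : V → X} (hh : h ∈ S) :
    h ∈ cyl S A h := mem_cyl.2 ⟨hh, Agree.rfl'⟩

theorem cyl_congr {S : Finset (V → X)} {A : Set V} {h g : V → X} (p : Agree A h g) :
    cyl S A h = cyl S A g := by
  ext k
  rw [mem_cyl, mem_cyl]
  exact ⟨fun q => ⟨q.1, q.2.trans p⟩, fun q => ⟨q.1, q.2.trans p.symm⟩⟩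

/-- conditional expectation of `F` given the values on `A`, uniform law on `S` -/
noncomputable def cE (S : Finset (V → X)) (A : Set V) (F : (V → X) → ℝ) (h : V → X) : ℝ :=
  ev (cyl S A h) F

theorem cE_dep (S : Finset (V → X)) (A : Set V) (F : (V → X) → ℝ) : Dep A (cE S A F) := by
  intro h g p
  unfold cE
  rw [cyl_congr p]

theorem cE_congr {S : Finset (V → X)} {A : Set V} {F G : (V → X) → ℝ} (h : V → X)
    (p : ∀ g ∈ S, Agree A g h → F g = G g) : cE S A F h = cE S A G h := by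
  unfold cE
  exact ev_congr _ _ _ fun g hg => p g (mem_cyl.1 hg).1 (mem_cyl.1 hg).2

theorem cE_of_dep {S : Finset (V → X)} {A : Set V} {F : (V → X) → ℝ} (p : Dep A F) {h : V → X}
    (hh : h ∈ S) : cE S A F h = F h := by
  have : cE S A F h = cE S A (fun _ => F h) h := cE_congr h fun g _ hg => p g h hg
  rw [this]
  exact ev_const _ ⟨h, self_mem_cyl hh⟩ _

theorem cE_add (S : Finset (V → X)) (A : Set V) (F G : (V → X) → ℝ) (h : V → X) :
    cE S A (fun g => F g + G g) h = cE S A F h + cE S A G h := ev_add _ _ _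

theorem cE_sub (S : Finset (V → X)) (A : Set V) (F G : (V → X) → ℝ) (h : V → X) :
    cE S A (fun g => F g - G g) h = cE S A F h - cE S A G h := ev_sub _ _ _

theorem cE_const_mul (S : Finset (V → X)) (A : Set V) (c : ℝ) (F : (V → X) → ℝ) (h : V → X) :
    cE S A (fun g => c * F g) h = c * cE S A F h := ev_const_mul _ _ _

theorem cE_sum {ι : Type*} (S : Finset (V → X)) (A : Set V) (T : Finset ι)
    (F : ι → (V → X) → ℝ) (h : V → X) :
    cE S A (fun g => ∑ i ∈ T, F i g) h = ∑ i ∈ T, cE S A (F i) h := by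
  unfold cE ev
  rw [Finset.sum_comm, Finset.sum_div]

theorem cE_mono {S : Finset (V → X)} {A : Set V} {F G : (V → X) → ℝ} (h : V → X)
    (p : ∀ g ∈ S, F g ≤ G g) : cE S A F h ≤ cE S A G h :=
  ev_mono _ _ _ fun g hg => p g (mem_cyl.1 hg).1

/-- pulling out what is known -/
theorem cE_mul_dep {S : Finset (V → X)} {A : Set V} {F G : (V → X) → ℝ} (p : Dep A G)
    (h : V → X) : cE S A (fun g => F g * G g) h = cE S A F h * G h := by
  have : cE S A (fun g => F g * G g) h = cE S A (fun g => G h * F g) h :=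
    cE_congr h fun g _ hg => by rw [p g h hg, mul_comm]
  rw [this, cE_const_mul, mul_comm]

theorem cE_le_of_abs {S : Finset (V → X)} {A : Set V} {F : (V → X) → ℝ} {M : ℝ} (hM : 0 ≤ M)
    (p : ∀ g ∈ S, |F g| ≤ M) (h : V → X) : |cE S A F h| ≤ M := by
  unfold cE ev
  rcases (cyl S A h).eq_empty_or_nonempty with h0 | h0
  · simp [h0, hM]
  · have hc : (0 : ℝ) < #(cyl S A h) := by exact_mod_cast h0.card_pos
    rw [abs_div, abs_of_pos hc, div_le_iff₀ hc]
    refine (abs_sum_le_sum_abs _ _).trans ?_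
    calc ∑ g ∈ cyl S A h, |F g| ≤ ∑ _g ∈ cyl S A h, M :=
          sum_le_sum fun g hg => p g (mem_cyl.1 hg).1
      _ = M * #(cyl S A h) := by rw [sum_const, nsmul_eq_mul, mul_comm]

/-- the conditional expectation is self-adjoint -/
theorem sum_cE_mul (S : Finset (V → X)) (A : Set V) (F G : (V → X) → ℝ) :
    ∑ h ∈ S, cE S A F h * G h = ∑ h ∈ S, F h * cE S A G h := by
  classical
  have e1 : ∀ h ∈ S, cE S A F h * G h
      = ∑ g ∈ S, if Agree A g h then F g * G h / (#(cyl S A h) : ℝ) else 0 := by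
    intro h _
    rw [← Finset.sum_filter]
    unfold cE ev
    rw [div_mul_eq_mul_div, Finset.sum_mul, Finset.sum_div]
    unfold cyl
    rfl
  have e2 : ∀ h ∈ S, F h * cE S A G h
      = ∑ g ∈ S, if Agree A g h then F h * G g / (#(cyl S A h) : ℝ) else 0 := by
    intro h _
    rw [← Finset.sum_filter]
    unfold cE ev
    rw [mul_div_assoc', Finset.mul_sum, Finset.sum_div]
    unfold cyl
    rfl
  rw [Finset.sum_congr rfl e1, Finset.sum_congr rfl e2, Finset.sum_comm]
  apply Finset.sum_congr rfl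
  intro h _
  apply Finset.sum_congr rfl
  intro g _
  by_cases p : Agree A g h
  · rw [if_pos p, if_pos p.symm, cyl_congr p]
  · rw [if_neg p, if_neg fun q => p q.symm]

theorem sum_cE_mul_dep {S : Finset (V → X)} {A : Set V} {F G : (V → X) → ℝ} (p : Dep A G) :
    ∑ h ∈ S, cE S A F h * G h = ∑ h ∈ S, F h * G h := by
  rw [sum_cE_mul]
  exact Finset.sum_congr rfl fun h hh => by rw [cE_of_dep p hh]

theorem sum_cE (S : Finset (V → X)) (A : Set V) (F : (V → X) → ℝ) :
    ∑ h ∈ S, cE S A F h = ∑ h ∈ S, F h := by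
  simpa using sum_cE_mul_dep (S := S) (A := A) (F := F) (dep_const (X := X) A 1)

theorem ev_cE (S : Finset (V → X)) (A : Set V) (F : (V → X) → ℝ) :
    ev S (cE S A F) = ev S F := by
  unfold ev
  rw [sum_cE]

theorem ev_cE_mul_cE (S : Finset (V → X)) (A : Set V) (F G : (V → X) → ℝ) :
    ev S (fun h => cE S A F h * cE S A G h) = ev S (fun h => cE S A F h * G h) := by
  unfold ev
  rw [sum_cE_mul S A F (cE S A G), sum_cE_mul S A F G]
  congr 1
  exact Finset.sum_congr rfl fun h hh => by rw [cE_of_dep (cE_dep S A G) hh]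

theorem cyl_cyl {S : Finset (V → X)} {A B : Set V} (hAB : A ⊆ B) {h g : V → X}
    (hg : Agree A g h) : cyl (cyl S A h) B g = cyl S B g := by
  ext k
  rw [mem_cyl, mem_cyl, mem_cyl]
  constructor
  · rintro ⟨⟨h1, _⟩, h3⟩
    exact ⟨h1, h3⟩
  · rintro ⟨h1, h3⟩
    exact ⟨⟨h1, (h3.mono hAB).trans hg⟩, h3⟩

/-- tower property -/
theorem cE_cE {S : Finset (V → X)} {A B : Set V} (hAB : A ⊆ B) (F : (V → X) → ℝ) (h : V → X) :
    cE S A (cE S B F) h = cE S A F h := by
  have e : cE S A (cE S B F) h = ev (cyl S A h) (cE (cyl S A h) B F) := by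
    unfold cE
    apply ev_congr
    intro g hg
    rw [cyl_cyl hAB (mem_cyl.1 hg).2]
  rw [e, ev_cE]
  rfl

theorem cE_cE' {S : Finset (V → X)} {A B : Set V} (hAB : A ⊆ B) (F : (V → X) → ℝ) {h : V → X}
    (hh : h ∈ S) : cE S B (cE S A F) h = cE S A F h :=
  cE_of_dep ((cE_dep S A F).mono hAB) hh

/-- `S` is closed under gluing along `A ∩ B` -/
def Glue (S : Finset (V → X)) (A B : Set V) : Prop :=
  ∀ h ∈ S, ∀ g ∈ S, Agree (A ∩ B) h g → ∃ k ∈ S, Agree A k h ∧ Agree B k g

theorem Glue.symm {S : Finset (V → X)} {A B : Set V} (p : Glue S A B) : Glue S B A := by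
  intro h hh g hg q
  rw [Set.inter_comm] at q
  obtain ⟨k, hk, h1, h2⟩ := p g hg h hh q.symm
  exact ⟨k, hk, h2, h1⟩

open Classical in
/-- `h` on `A` and `g` off `A` -/
noncomputable def glue (A : Set V) (h g : V → X) : V → X := fun v => if v ∈ A then h v else g v

theorem glue_eq {A B : Set V} (hAB : A ∪ B = Set.univ) {h g k : V → X} (h1 : Agree A k h)
    (h2 : Agree B k g) : glue A h g = k := by
  classical
  funext v
  unfold glue
  by_cases hv : v ∈ A
  · rw [if_pos hv, h1 v hv]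
  · have hv' : v ∈ B := by
      have : v ∈ A ∪ B := hAB ▸ Set.mem_univ v
      exact this.resolve_left hv
    rw [if_neg hv, h2 v hv']

/-- sums over the cylinders over `B` of a function of the values on `A` depend only on the values
on `A ∩ B` -/
theorem sum_cyl_eq {S : Finset (V → X)} {A B : Set V} (hAB : A ∪ B = Set.univ)
    (p : Glue S A B) {F : (V → X) → ℝ} (hF : Dep A F) {h g : V → X} (hh : h ∈ S) (hg : g ∈ S)
    (q : Agree (A ∩ B) h g) : ∑ k ∈ cyl S B h, F k = ∑ k ∈ cyl S B g, F k := by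
  have key : ∀ {h g : V → X}, h ∈ S → g ∈ S → Agree (A ∩ B) h g → ∀ k ∈ cyl S B h,
      Agree A (glue A k g) k ∧ Agree B (glue A k g) g ∧ glue A k g ∈ S := by
    intro h g hh hg q k hk
    obtain ⟨hk, hk'⟩ := mem_cyl.1 hk
    obtain ⟨k', h1, h2, h3⟩ := p k hk g hg
      ((hk'.mono Set.inter_subset_right).trans q)
    have := glue_eq hAB h2 h3
    rw [this]
    exact ⟨h2, h3, h1⟩
  refine Finset.sum_bij' (fun k _ => glue A k g) (fun k _ => glue A k h) ?_ ?_ ?_ ?_ ?_
  · intro k hk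
    obtain ⟨h1, h2, h3⟩ := key hh hg q k hk
    exact mem_cyl.2 ⟨h3, h2⟩
  · intro k hk
    obtain ⟨h1, h2, h3⟩ := key hg hh q.symm k hk
    exact mem_cyl.2 ⟨h3, h2⟩
  · intro k hk
    obtain ⟨h1, h2, h3⟩ := key hh hg q k hk
    exact glue_eq hAB h1.symm (mem_cyl.1 hk).2
  · intro k hk
    obtain ⟨h1, h2, h3⟩ := key hg hh q.symm k hk
    exact glue_eq hAB h1.symm (mem_cyl.1 hk).2
  · intro k hk
    obtain ⟨h1, h2, h3⟩ := key hh hg q k hk
    exact hF _ _ h1.symm

/-- Markov property -/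
theorem markov {S : Finset (V → X)} {A B : Set V} (hAB : A ∪ B = Set.univ)
    (p : Glue S A B) {F : (V → X) → ℝ} (hF : Dep A F) {h : V → X} (hh : h ∈ S) :
    cE S B F h = cE S (A ∩ B) F h := by
  have e : cE S (A ∩ B) F h = cE S (A ∩ B) (cE S B F) h :=
    (cE_cE Set.inter_subset_right F h).symm
  rw [e]
  have e2 : cE S (A ∩ B) (cE S B F) h = cE S (A ∩ B) (fun _ => cE S B F h) h := by
    apply cE_congr
    intro g hg hgh
    unfold cE ev
    rw [sum_cyl_eq hAB p hF hg hh hgh]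
    have := sum_cyl_eq (F := fun _ => (1 : ℝ)) hAB p (dep_const A 1) hg hh hgh
    simp only [sum_const, nsmul_eq_mul, mul_one] at this
    rw [this]
  rw [e2]
  symm
  exact ev_const _ ⟨h, self_mem_cyl hh⟩ _

/-- conditional independence of the two sides -/
theorem sum_mul_eq {S : Finset (V → X)} {A B : Set V} (hAB : A ∪ B = Set.univ)
    (p : Glue S A B) {F G : (V → X) → ℝ} (hF : Dep A F) (hG : Dep B G) :
    ∑ h ∈ S, F h * G h = ∑ h ∈ S, cE S (A ∩ B) F h * cE S (A ∩ B) G h := by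
  calc ∑ h ∈ S, F h * G h = ∑ h ∈ S, cE S B F h * G h := (sum_cE_mul_dep hG).symm
    _ = ∑ h ∈ S, cE S (A ∩ B) F h * G h :=
        Finset.sum_congr rfl fun h hh => by rw [markov hAB p hF hh]
    _ = ∑ h ∈ S, cE S (A ∩ B) F h * cE S (A ∩ B) G h := by
        have h1 := sum_cE_mul_dep (S := S) (A := A ∩ B) (F := G) (G := cE S (A ∩ B) F)
          (cE_dep _ _ _)
        calc ∑ h ∈ S, cE S (A ∩ B) F h * G h = ∑ h ∈ S, G h * cE S (A ∩ B) F h :=
              Finset.sum_congr rfl fun h _ => mul_comm _ _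
          _ = ∑ h ∈ S, cE S (A ∩ B) G h * cE S (A ∩ B) F h := h1.symm
          _ = _ := Finset.sum_congr rfl fun h _ => mul_comm _ _

theorem ev_mul_eq {S : Finset (V → X)} {A B : Set V} (hAB : A ∪ B = Set.univ)
    (p : Glue S A B) {F G : (V → X) → ℝ} (hF : Dep A F) (hG : Dep B G) :
    ev S (fun h => F h * G h) = ev S (fun h => cE S (A ∩ B) F h * cE S (A ∩ B) G h) := by
  unfold ev
  rw [sum_mul_eq hAB p hF hG]

/-- conditional independence given the values on the separating set, conditional form -/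
theorem cE_mul_eq {S : Finset (V → X)} {A B : Set V} (hAB : A ∪ B = Set.univ)
    (p : Glue S A B) {F G : (V → X) → ℝ} (hF : Dep A F) (hG : Dep B G) {h : V → X}
    (_hh : h ∈ S) :
    cE S (A ∩ B) (fun g => F g * G g) h = cE S (A ∩ B) F h * cE S (A ∩ B) G h := by
  have e1 : cE S (A ∩ B) (fun g => F g * G g) h
      = cE S (A ∩ B) (cE S B (fun g => F g * G g)) h :=
    (cE_cE Set.inter_subset_right _ h).symm
  have e2 : cE S (A ∩ B) (cE S B (fun g => F g * G g)) h
      = cE S (A ∩ B) (fun g => G g * cE S (A ∩ B) F g) h := by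
    apply cE_congr
    intro g hg _
    rw [cE_mul_dep hG, markov hAB p hF hg, mul_comm]
  rw [e1, e2, cE_mul_dep (cE_dep S (A ∩ B) F), mul_comm]

/-! ### reflections -/

/-- reflected observable -/
def rf (θ : V → V) (F : (V → X) → ℝ) : (V → X) → ℝ := fun h => F (h ∘ θ)

/-- the reflection `θ` is a symmetry of `S` -/
structure Refl (S : Finset (V → X)) (θ : V → V) : Prop where
  inv : ∀ v, θ (θ v) = v
  mem : ∀ h ∈ S, h ∘ θ ∈ S

theorem Refl.comp_comp {S : Finset (V → X)} {θ : V → V} (r : Refl S θ) (h : V → X) :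
    (h ∘ θ) ∘ θ = h := by
  funext v
  simp [Function.comp, r.inv v]

theorem rf_rf {S : Finset (V → X)} {θ : V → V} (r : Refl S θ) (F : (V → X) → ℝ) :
    rf θ (rf θ F) = F := by
  funext h
  unfold rf
  rw [r.comp_comp]

theorem sum_rf {S : Finset (V → X)} {θ : V → V} (r : Refl S θ) (F : (V → X) → ℝ) :
    ∑ h ∈ S, rf θ F h = ∑ h ∈ S, F h := by
  refine Finset.sum_bij' (fun h _ => h ∘ θ) (fun h _ => h ∘ θ) ?_ ?_ ?_ ?_ ?_
  · exact fun h hh => r.mem h hh
  · exact fun h hh => r.mem h hh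
  · exact fun h _ => r.comp_comp h
  · exact fun h _ => r.comp_comp h
  · exact fun h _ => rfl

theorem ev_rf {S : Finset (V → X)} {θ : V → V} (r : Refl S θ) (F : (V → X) → ℝ) :
    ev S (rf θ F) = ev S F := by
  unfold ev
  rw [sum_rf r]

theorem Dep.rf {A B : Set V} {θ : V → V} (hθ : ∀ v ∈ A, θ v ∈ B) {F : (V → X) → ℝ}
    (p : Dep A F) : Dep B (rf θ F) := by
  intro h g q
  apply p
  intro v hv
  exact q _ (hθ v hv)

/-- given the values on the fixed set, an observable and its reflection have the same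
conditional expectation -/
theorem cE_rf {S : Finset (V → X)} {θ : V → V} (r : Refl S θ) {R : Set V}
    (hR : ∀ v ∈ R, θ v = v) (F : (V → X) → ℝ) (h : V → X) :
    cE S R (rf θ F) h = cE S R F h := by
  have hm : ∀ g ∈ cyl S R h, g ∘ θ ∈ cyl S R h := by
    intro g hg
    obtain ⟨h1, h2⟩ := mem_cyl.1 hg
    refine mem_cyl.2 ⟨r.mem g h1, fun v hv => ?_⟩
    show g (θ v) = h v
    rw [hR v hv]
    exact h2 v hv
  have r' : Refl (cyl S R h) θ := ⟨r.inv, hm⟩
  exact ev_rf r' F

/-- reflection identity: `E[E_R F · E_R G] = E[F · θG]` for `F`, `G` on the same side -/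
theorem ev_reflect {S : Finset (V → X)} {θ : V → V} (r : Refl S θ) {A B : Set V}
    (hAB : A ∪ B = Set.univ) (p : Glue S A B) (hθ : ∀ v ∈ A, θ v ∈ B)
    (hR : ∀ v ∈ A ∩ B, θ v = v) {F G : (V → X) → ℝ} (hF : Dep A F) (hG : Dep A G) :
    ev S (fun h => F h * rf θ G h)
      = ev S (fun h => cE S (A ∩ B) F h * cE S (A ∩ B) G h) := by
  rw [ev_mul_eq hAB p hF (hG.rf hθ)]
  apply ev_congr
  intro h _
  rw [cE_rf r hR]

/-- reflection positivity -/
theorem ev_rp {S : Finset (V → X)} {θ : V → V} (r : Refl S θ) {A B : Set V}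
    (hAB : A ∪ B = Set.univ) (p : Glue S A B) (hθ : ∀ v ∈ A, θ v ∈ B)
    (hR : ∀ v ∈ A ∩ B, θ v = v) {F : (V → X) → ℝ} (hF : Dep A F) :
    0 ≤ ev S (fun h => F h * rf θ F h) := by
  rw [ev_reflect r hAB p hθ hR hF hF]
  exact ev_nonneg _ _ fun h _ => mul_self_nonneg _

/-! ### association -/

theorem cyl_inf {X : Type*} [DistribLattice X] {S : Finset (V → X)}
    (hinf : ∀ a ∈ S, ∀ b ∈ S, a ⊓ b ∈ S) (A : Set V) (h : V → X) :
    ∀ a ∈ cyl S A h, ∀ b ∈ cyl S A h, a ⊓ b ∈ cyl S A h := by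
  intro a ha b hb
  rw [mem_cyl] at *
  refine ⟨hinf a ha.1 b hb.1, fun v hv => ?_⟩
  show a v ⊓ b v = h v
  rw [ha.2 v hv, hb.2 v hv, inf_idem]

theorem cyl_sup {X : Type*} [DistribLattice X] {S : Finset (V → X)}
    (hsup : ∀ a ∈ S, ∀ b ∈ S, a ⊔ b ∈ S) (A : Set V) (h : V → X) :
    ∀ a ∈ cyl S A h, ∀ b ∈ cyl S A h, a ⊔ b ∈ cyl S A h := by
  intro a ha b hb
  rw [mem_cyl] at *
  refine ⟨hsup a ha.1 b hb.1, fun v hv => ?_⟩
  show a v ⊔ b v = h v
  rw [ha.2 v hv, hb.2 v hv, sup_idem]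

/-- conditional association given the values on any set -/
theorem cE_mul_ge {X : Type*} [DistribLattice X] {S : Finset (V → X)}
    (hinf : ∀ a ∈ S, ∀ b ∈ S, a ⊓ b ∈ S) (hsup : ∀ a ∈ S, ∀ b ∈ S, a ⊔ b ∈ S) (A : Set V)
    {h : V → X} (hh : h ∈ S) {F G : (V → X) → ℝ} (hF : Monotone F) (hG : Monotone G) :
    cE S A F h * cE S A G h ≤ cE S A (fun g => F g * G g) h :=
  ev_mul_ge (cyl S A h) ⟨h, self_mem_cyl hh⟩ (cyl_inf hinf A h) (cyl_sup hsup A h) F G hF hG

/-- the conditional expectation of a monotone function is monotone in the condition -/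
theorem cE_le_cE {X : Type*} [DistribLattice X] {S : Finset (V → X)}
    (hinf : ∀ a ∈ S, ∀ b ∈ S, a ⊓ b ∈ S) (hsup : ∀ a ∈ S, ∀ b ∈ S, a ⊔ b ∈ S) (A : Set V)
    {h g : V → X} (hh : h ∈ S) (hg : g ∈ S) (hle : ∀ v ∈ A, h v ≤ g v)
    {F : (V → X) → ℝ} (hF : Monotone F) :
    cE S A F h ≤ cE S A F g := by
  refine ev_le_ev (cyl S A h) (cyl S A g) ⟨h, self_mem_cyl hh⟩ ⟨g, self_mem_cyl hg⟩ ?_ ?_ F hF
  · intro a ha b hb
    rw [mem_cyl] at *
    refine ⟨hinf a ha.1 b hb.1, fun v hv => ?_⟩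
    show a v ⊓ b v = h v
    rw [ha.2 v hv, hb.2 v hv]
    exact inf_eq_left.2 (hle v hv)
  · intro a ha b hb
    rw [mem_cyl] at *
    refine ⟨hsup a ha.1 b hb.1, fun v hv => ?_⟩
    show a v ⊔ b v = g v
    rw [ha.2 v hv, hb.2 v hv]
    exact sup_eq_right.2 (hle v hv)

end Vale.Agent.P153.Fv
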